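import Vale.Agent.P076N.AT.Ent
import Vale.Agent.P076N.FL.Spec

/-!
# P076N / AT : the common setting of AT1 - AT4
-/

set_option linter.all false

open Finset Vale.Agent.P127 Vale.Agent.P127.Stk

namespace Vale.Agent.P076N.AT

open FL

noncomputable section

variable {m : ℕ}

theorem gph_mono {B : ℝ} {X Y : Finset (Nd m)} (h : Y ⊆ X) (hX : GphA B X) : GphA B Y := fun y =>
  le_trans (by exact_mod_cast Finset.card_le_card (Finset.filter_subset_filter _ h)) (hX y)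

theorem wga_mono {B : ℝ} {ℓ : ℤ} {X Y : Finset (Nd m)} (h : Y ⊆ X) (hX : WGA B ℓ X) : WGA B ℓ Y := fun y s =>
  le_trans (by exact_mod_cast Finset.card_le_card (Finset.filter_subset_filter _ h)) (hX y s)

theorem rpow_eq (N : ℕ) (t : ℝ) : ((2 : ℝ) ^ N) ^ t = Real.exp (t * (N * Real.log 2)) := by
  rw [Real.rpow_def_of_pos (by positivity), Real.log_pow, mul_comm]

theorem rpow_mono (N : ℕ) {s t Q : ℝ} (hQ : 0 ≤ Q) (h : s ≤ t) : ((2 : ℝ) ^ N) ^ s * Q ≤ ((2 : ℝ) ^ N) ^ t * Q :=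
  mul_le_mul_of_nonneg_right (Real.rpow_le_rpow_of_exponent_le (one_le_pow₀ (by norm_num)) h) hQ

theorem of_log (N : ℕ) {a t Q : ℝ} (hQ : 0 < Q) (h : Real.log a ≤ Real.log Q + t * (N * Real.log 2)) :
    a ≤ ((2 : ℝ) ^ N) ^ t * Q := by
  rcases le_or_gt a 0 with h0 | h0
  · exact h0.trans (by positivity)
  · rw [rpow_eq, ← Real.exp_log h0, ← Real.exp_log hQ, ← Real.exp_add]
    exact Real.exp_le_exp.2 (by linarith)

theorem ev_lg (c o : ℝ) (ho : 0 < o) : ∃ N₀ : ℕ, ∀ N ≥ N₀, c ≤ o * (N * Real.log 2) := by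
  obtain ⟨N₀, h⟩ := ev_log c o ho
  refine ⟨N₀, fun N hN => ?_⟩
  have := h N hN
  push_cast at this
  rwa [Real.log_pow] at this

/-- the outcome of the setting -/
structure Out {K : ℕ} {C : ℝ} (G : St m K C) (N : ℕ) (Q B θ o α : ℝ) (X : Finset (Nd m)) (gr : Prop) : Prop where
  hN : G.N = N
  lg : G.lg = N * Real.log 2
  lg1 : 1 ≤ G.lg
  Q0 : 0 < Q
  sub : G.V 0 ⊆ X
  e : G.e ≤ θ * G.lg
  flt : G.Flt
  wg : G.Wg B
  gph : gr → GphA B (G.V 0)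
  mass : Real.log (α ^ 2 * #X) ≤ G.P.H (G.S K) + Real.log (G.A K ^ 2 * (G.D : ℝ) ^ (K * m)) +
    (2 * K - 2 * G.AA 0 K + o) * G.lg
  cq : Real.log (C * G.Q) ≤ Real.log Q + o * G.lg
  top : G.P.H (G.S K) + Real.log (G.A K ^ 2 * (G.D : ℝ) ^ (K * m)) ≤ Real.log Q + o * G.lg
  card : Real.log #X ≤ Real.log #(G.V 0) + o * G.lg
  ne : (G.V 0).Nonempty

theorem Out.bound {K : ℕ} {C : ℝ} {G : St m K C} {N : ℕ} {Q B θ o α : ℝ} {X : Finset (Nd m)} {gr : Prop}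
    (h : Out G N Q B θ o α X gr) {t : ℝ} (ht : 2 * K - 2 * G.AA 0 K + 2 * o ≤ t) :
    α ^ 2 * #X ≤ ((2 : ℝ) ^ N) ^ t * Q := by
  refine of_log N h.Q0 ?_
  rw [← h.lg]
  nlinarith [h.mass, h.top, h.lg1]

theorem ar1 {e θ₂ lg c o : ℝ} (he : e ≤ θ₂ * lg) (hc : 0 ≤ c) (hl : 0 ≤ lg) (h0 : 0 ≤ θ₂)
    (ht : θ₂ ≤ o / (c + 1)) : c * e ≤ o * lg := by
  rw [le_div_iff₀ (by positivity)] at ht
  nlinarith [mul_le_mul_of_nonneg_left he hc, mul_le_mul_of_nonneg_right ht hl, mul_nonneg h0 hl]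

theorem ar2 {X V α C Q R : ℝ} (h3 : X ≤ 2 * (X - V)) (h : α ^ 2 * (X - V) ≤ C * Q) (h4 : 2 * C ≤ R)
    (hQ : 0 ≤ Q) : α ^ 2 * X ≤ R * Q := by
  nlinarith [mul_le_mul_of_nonneg_left h3 (sq_nonneg α), mul_le_mul_of_nonneg_right h4 hQ]

/-- **the setting** -/
theorem core (hB : B2 m) (hs : ∀ K C, SET m K C) (O : Orc) (π : Par) (C B cn θ₁ : ℝ) (hC : 1 ≤ C) (h1 : 0 < θ₁)
    (hO : ∀ (G : St m π.K C) (β : ℝ) (gr : Prop), G.Sm θ₁ β → G.Typ π.Tr β → G.Flt → G.Wg B →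
      (gr → GphA B (G.V 0)) → Ax m gr O π (G.dat cn)) (θ o : ℝ) (hθ : 0 < θ) (ho : 0 < o) :
    ∃ N₀ : ℕ, ∀ N ≥ N₀, ∀ (Q : ℝ) (F : Amp m (2 ^ N) π.K C Q) (X : Finset (Nd m)) (α : ℝ) (gr : Prop)
      (V₀ : ℕ → Finset (Nd m)), 0 < α → V₀ 0 ⊆ X →
      (∀ x ∈ X, (∀ l, |x.c l| ≤ 10) ∧ 0 ≤ x.T ∧ x.T < ((2 ^ N : ℕ) : ℤ) ^ (2 * π.K)) →
      α ^ 2 * ((#X : ℝ) - #(V₀ 0)) ≤ C * Q → (∀ x ∈ V₀ 0, α ≤ F.a 0 x (UU (2 ^ N) π.K V₀ 0 x)) →
      (∀ S ∈ V₀ π.K, F.a π.K S {S.c} ≤ α * ((2 ^ N : ℕ) : ℝ) ^ π.K) → WGA B (((2 : ℤ) ^ N) ^ π.K) X →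
      (gr → GphA B X) → α ^ 2 * #X ≤ ((2 : ℝ) ^ N) ^ o * Q ∨ ∃ G : St m π.K C, Out G N Q B θ o α X gr ∧
        Ax m gr O π (G.dat cn) ∧ (∀ c, NoPl F c → NoPl G.F c) ∧ ∀ i, G.V i ⊆ V₀ i := by
  obtain ⟨cs, hstd⟩ := hB.std π.K C
  obtain ⟨cl, hlv⟩ := hB.lv π.K C
  have hcs := hstd.c0
  set θ₂ := min (min θ θ₁) (o / 4 / (cs + 1)) with hθ₂
  have h2 : 0 < θ₂ := lt_min (lt_min hθ h1) (by positivity)
  obtain ⟨N₁, hset⟩ := hs π.K C (o / 8) θ₂ π.Tr hC (by positivity) h2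
  obtain ⟨N₂, hN₂⟩ := ev_lg (Real.log (2 * C)) (o / 8) (by positivity)
  refine ⟨max N₁ N₂, fun N hN Q F X α gr V₀ hα hsub hr hcq hamp htop hwg hgr => ?_⟩
  have hl := hN₂ N (le_of_max_le_right hN)
  have hQ := F.Q_nonneg hC
  have hl2 : Real.log (2 * C) = Real.log 2 + Real.log C := Real.log_mul (by norm_num) (by linarith)
  have hlC : 0 ≤ Real.log C := Real.log_nonneg hC
  have hl3 : 0 < Real.log 2 := Real.log_pos (by norm_num)
  by_cases hc : (#X : ℝ) ≤ 2 * #(V₀ 0) ∧ (V₀ 0).Nonempty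
  swap
  · left
    have h3 : (#X : ℝ) ≤ 2 * ((#X : ℝ) - #(V₀ 0)) := by
      rcases (V₀ 0).eq_empty_or_nonempty with h | h
      · rw [h]; simp; have : (0 : ℝ) ≤ #X := Nat.cast_nonneg _; linarith
      · have : ¬ (#X : ℝ) ≤ 2 * #(V₀ 0) := fun h' => hc ⟨h', h⟩
        linarith
    have h4 : 2 * C ≤ ((2 : ℝ) ^ N) ^ o := by
      rw [rpow_eq, ← Real.exp_log (by linarith : 0 < 2 * C)]
      refine Real.exp_le_exp.2 (hl.trans (mul_le_mul_of_nonneg_right (by linarith) (by positivity)))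
    exact ar2 h3 hcq h4 hQ
  right
  obtain ⟨G, β, g1, g2, g3, g4, g5, g6, g7, g8, g9⟩ := hset N (le_of_max_le_left hN) Q α F V₀ hα hc.2
    (fun x hx => ⟨(hr x (hsub hx)).1, (hr x (hsub hx)).2.1, (hr x (hsub hx)).2.2, hamp x hx⟩)
    (by simpa using htop)
  have hV : G.V 0 ⊆ X := (g4 0).trans hsub
  have hlg : G.lg = N * Real.log 2 := by rw [St0.lg, g1]
  have hlg1 := (hlv.lg G).1
  have hlg0 : 0 ≤ G.lg := by linarith
  have hol : 0 ≤ o * G.lg := mul_nonneg ho.le hlg0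
  have hw : G.Wg B := by rw [St0.Wg, g1]; exact wga_mono hV hwg
  have hg : gr → GphA B (G.V 0) := fun h => gph_mono hV (hgr h)
  have t1 : θ₂ ≤ θ := (min_le_left _ _).trans (min_le_left _ _)
  have t2 : θ₂ ≤ θ₁ := (min_le_left _ _).trans (min_le_right _ _)
  have t3 : θ₂ ≤ o / 4 / (cs + 1) := min_le_right _ _
  have hne := G.val.ne
  have hV0 : (0 : ℝ) < #(G.V 0) := by exact_mod_cast hne.card_pos
  have hX0 : (0 : ℝ) < #X := by exact_mod_cast (hne.mono hV).card_pos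
  have hA0 := G.val.pos 0 (Nat.zero_le _)
  have hcard : Real.log #X ≤ Real.log #(G.V 0) + o / 4 * G.lg := by
    have h3 : (#X : ℝ) ≤ 2 * (((2 : ℝ) ^ N) ^ (o / 8) * #(G.V 0)) := by linarith [hc.1]
    have h4 := Real.log_le_log hX0 h3
    rw [Real.log_mul (by norm_num) (by positivity), Real.log_mul (by positivity) hV0.ne', rpow_eq,
      Real.log_exp, ← hlg] at h4
    rw [← hlg] at hl
    linarith
  have hcq' : Real.log (C * G.Q) ≤ Real.log Q + o * G.lg := by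
    have := (hstd.top G).1
    rw [Real.log_mul (by linarith) this.ne', g2]
    rw [← hlg] at hl
    linarith
  refine ⟨G, ⟨g1, hlg, hlg1, g2 ▸ (hstd.top G).1, hV, g5.1.trans (mul_le_mul_of_nonneg_right t1 hlg0), g7, hw,
    hg, ?_, hcq', (hstd.top G).2.trans hcq', hcard.trans (by linarith), hne⟩,
    hO G β gr ⟨g5.1.trans (mul_le_mul_of_nonneg_right t2 hlg0), g5.2.trans t2⟩ g6 g7 hw hg, g3, g4⟩
  have h3 := hstd.mass G
  have h4 := Real.log_le_log hα g8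
  rw [Real.log_mul (by positivity) hA0.ne', rpow_eq, Real.log_exp, ← hlg] at h4
  rw [Real.log_mul (by positivity) hV0.ne', Real.log_pow] at h3
  rw [Real.log_mul (by positivity) hX0.ne', Real.log_pow]
  have h5 : cs * G.e ≤ o / 4 * G.lg := ar1 g5.1 hcs hlg0 h2.le t3
  push_cast at h3 ⊢
  linarith

/-- the standard path glued with a path -/
theorem link (hB : B2 m) (K : ℕ) (C cn : ℝ) (hcn : 0 ≤ cn) : ∃ c c' : ℝ, 0 ≤ c ∧ 0 ≤ c' ∧
    ∀ (G : St m K C) (w j : ℕ) (z : ℝ), Path (G.El cn) w j z → j ≤ K →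
      G.LK c w 0 j (((m + 2) * j - G.ΦA 0 w - 2 * G.AA 0 w - z) * G.lg - c' * G.e) := by
  obtain ⟨cs, hstd⟩ := hB.std K C
  have hg := hB.gl K C
  obtain ⟨c, hc, hp⟩ := hg.path cn hcn
  have h13 : 0 ≤ (m : ℝ) * Real.log (4 * 3 + 1) := mul_nonneg (Nat.cast_nonneg _) (Real.log_nonneg (by norm_num))
  refine ⟨3 + c + 1, cs + c + m * Real.log (4 * 3 + 1), by linarith, by linarith [hstd.c0], fun G w j z h hj => ?_⟩
  obtain ⟨hwj, h2⟩ := hp G w j z h hj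
  have h1 := hg.std G w 0 w (Nat.zero_le _) (hwj.trans hj)
  have h3 := hg.glue G 3 c w 0 w j _ _ (by norm_num) le_rfl (Nat.zero_le _) hwj hj h1 h2
  refine hg.mono G _ _ w w 0 j _ _ le_rfl le_rfl (hwj.trans hj) ?_ h3
  have h4 := (abs_le.1 (hstd.ch G 0 w (Nat.zero_le _) (hwj.trans hj))).1
  have := G.e1
  push_cast at h4
  nlinarith

end

end Vale.Agent.P076N.AT
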