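import Vale.Agent.P076N.AT.Prep

/-!
# P076N / AT : entropy tools
-/

set_option linter.all false

open Finset Vale.Agent.P127 Vale.Agent.P127.Stk

namespace Vale.Agent.P076N.AT

noncomputable section

variable {Ω : Type} [Fintype Ω] {S T U : Type*}

theorem exists_pos (P : Law Ω) : ∃ ω, 0 < P.w ω := by
  by_contra h
  push Not at h
  have : ∑ ω, P.w ω ≤ 0 := Finset.sum_nonpos fun ω _ => h ω
  linarith [P.sum_one]

theorem hc_le_logR (P : Law Ω) (X : Ω → S) (Y : Ω → T) (r : ℝ)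
    (h : ∀ ω, 0 < P.w ω → ∃ F : Finset S, (#F : ℝ) ≤ r ∧ ∀ ω', 0 < P.w ω' → Y ω' = Y ω → X ω' ∈ F) :
    hc P X Y ≤ Real.log r := by
  obtain ⟨ω₀, h₀⟩ := exists_pos P
  obtain ⟨F₀, h1, h2⟩ := h ω₀ h₀
  have h3 : 1 ≤ #F₀ := Finset.card_pos.2 ⟨_, h2 ω₀ h₀ rfl⟩
  have h4 : (1 : ℝ) ≤ r := le_trans (by exact_mod_cast h3) h1
  refine (hc_le_log P X Y ⌊r⌋₊ fun ω hω => ?_).trans (Real.log_le_log ?_ (Nat.floor_le (by linarith)))
  · obtain ⟨F, a, b⟩ := h ω hω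
    exact ⟨F, Nat.le_floor a, b⟩
  · exact_mod_cast Nat.floor_pos.2 h4

theorem H_unit (P : Law Ω) : P.H (fun _ => ()) = 0 := by
  have h := P.H_le_log_card (fun _ : Ω => ())
  simp only [Fintype.card_unit, Nat.cast_one, Real.log_one] at h
  exact le_antisymm h (P.H_nonneg _)

theorem hc_unit' (P : Law Ω) (X : Ω → S) : hc P X (fun _ => ()) = P.H X := by
  unfold hc
  rw [H_unit, sub_zero]
  exact P.H_congr fun ω ω' => by simp

theorem H_le_logR (P : Law Ω) (X : Ω → S) (F : Finset S) (r : ℝ) (hr : (#F : ℝ) ≤ r)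
    (h : ∀ ω, 0 < P.w ω → X ω ∈ F) : P.H X ≤ Real.log r := by
  rw [← hc_unit']
  exact hc_le_logR P X _ r fun ω _ => ⟨F, hr, fun ω' h' _ => h ω' h'⟩

theorem H_le_add (P : Law Ω) (X : Ω → S) (Y : Ω → T) : P.H X ≤ P.H Y + hc P X Y := by
  have := H_mono' P (X := fun ω => (X ω, Y ω)) (Y := X) fun ω ω' _ _ h => congrArg Prod.fst h
  unfold hc; linarith

theorem H_eq_add (P : Law Ω) {X : Ω → S} {Y : Ω → T} (h : Fn P Y X) : P.H X = P.H Y + hc P X Y := by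
  have := H_congr' P (X := fun ω => (X ω, Y ω)) (Y := X) (fun ω ω' _ _ h => congrArg Prod.fst h)
    fun ω ω' a b e => Prod.ext e (h ω ω' a b e)
  unfold hc; linarith

theorem card_Icc_real (g r : ℝ) (hr : 0 ≤ r) : (#(Finset.Icc ⌈g - r⌉ ⌊g + r⌋) : ℝ) ≤ 2 * r + 1 := by
  rw [Int.card_Icc]
  rcases le_total (⌊g + r⌋ + 1 - ⌈g - r⌉) 0 with h | h
  · rw [Int.toNat_eq_zero.2 h]; simp; linarith
  · have h1 : (((⌊g + r⌋ + 1 - ⌈g - r⌉).toNat : ℤ) : ℝ) = ((⌊g + r⌋ + 1 - ⌈g - r⌉ : ℤ) : ℝ) := by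
      rw [Int.toNat_of_nonneg h]
    have h2 := Int.floor_le (g + r)
    have h3 := Int.le_ceil (g - r)
    push_cast at h1
    rw [h1]; linarith

theorem mem_Icc_real {g r : ℝ} {z : ℤ} (h : |(z : ℝ) - g| ≤ r) : z ∈ Finset.Icc ⌈g - r⌉ ⌊g + r⌋ := by
  obtain ⟨a, b⟩ := abs_le.1 h
  exact Finset.mem_Icc.2 ⟨Int.ceil_le.2 (by linarith), Int.le_floor.2 (by linarith)⟩

/-- the box of integer vectors near a point -/
def box {ι : Type} [Fintype ι] [DecidableEq ι] (g : ι → ℝ) (r : ℝ) : Finset (ι → ℤ) :=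
  Fintype.piFinset fun i => Finset.Icc ⌈g i - r⌉ ⌊g i + r⌋

theorem card_box {ι : Type} [Fintype ι] [DecidableEq ι] (g : ι → ℝ) {r : ℝ} (hr : 0 ≤ r) :
    (#(box g r) : ℝ) ≤ (2 * r + 1) ^ Fintype.card ι := by
  rw [box, Fintype.card_piFinset, Nat.cast_prod, ← Finset.card_univ, ← Finset.prod_const]
  exact Finset.prod_le_prod (fun i _ => Nat.cast_nonneg _) fun i _ => card_Icc_real _ _ hr

theorem mem_box {ι : Type} [Fintype ι] [DecidableEq ι] {g : ι → ℝ} {r : ℝ} {z : ι → ℤ}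
    (h : ∀ i, |(z i : ℝ) - g i| ≤ r) : z ∈ box g r :=
  Fintype.mem_piFinset.2 fun i => mem_Icc_real (h i)

theorem hc_int (P : Law Ω) (X : Ω → ℤ) (Y : Ω → T) (g : T → ℝ) (r : ℝ)
    (h : ∀ ω, 0 < P.w ω → |(X ω : ℝ) - g (Y ω)| ≤ r) : hc P X Y ≤ Real.log (2 * r + 1) := by
  refine hc_le_logR P X Y _ fun ω hω => ⟨_, card_Icc_real (g (Y ω)) r ((abs_nonneg _).trans (h ω hω)), ?_⟩
  intro ω' h' e
  rw [← e]; exact mem_Icc_real (h ω' h')

theorem hc_vec {m : ℕ} (P : Law Ω) (X : Ω → Zv m) (Y : Ω → T) (g : T → Fin m → ℝ) (r : ℝ) (hr : 0 ≤ r)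
    (h : ∀ ω, 0 < P.w ω → ∀ l, |(X ω l : ℝ) - g (Y ω) l| ≤ r) : hc P X Y ≤ m * Real.log (2 * r + 1) := by
  have := hc_le_logR P X Y ((2 * r + 1) ^ m) fun ω hω => ⟨box (g (Y ω)) r, by simpa using card_box (g (Y ω)) hr, by
    intro ω' h' e
    rw [← e]; exact mem_box (h ω' h')⟩
  rwa [Real.log_pow] at this

theorem hc_pair_le (P : Law Ω) (X : Ω → S) (Y : Ω → T) (Z : Ω → U) :
    hc P (fun ω => (X ω, Y ω)) Z ≤ hc P X Z + hc P Y Z := by
  rw [hc_pair]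
  have := hc_mono_right P Y (Y := Z) (Y' := fun ω => (X ω, Z ω)) fun ω ω' _ _ h => congrArg Prod.snd h
  linarith

/-- conditioning on an almost determined variable -/
theorem hc_le_cond (P : Law Ω) (X : Ω → S) (Y : Ω → T) (Z : Ω → U) : hc P X Z ≤ hc P X Y + hc P Y Z := by
  have h1 := hc_le_add' P X Y Z
  have h2 := hc_mono_right P X (Y := Y) (Y' := fun ω => (Y ω, Z ω)) fun ω ω' _ _ h => congrArg Prod.fst h
  linarith

/-- a pointwise bound for the conditional law bounds the conditional entropy from below -/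
theorem le_hc_of_pr (P : Law Ω) (X : Ω → S) (Y : Ω → T) (M : ℝ)
    (h : ∀ x y, P.pr (fun ω => (X ω, Y ω)) (x, y) ≤ Real.exp M * P.pr X x) : -M ≤ hc P Y X := by
  have e : P.H (fun ω => (Y ω, X ω)) = P.H (fun ω => (X ω, Y ω)) :=
    P.H_congr fun ω ω' => by simp only [Prod.mk.injEq]; tauto
  unfold hc
  rw [e]
  unfold Law.H
  rw [← P.ex_sub, ← P.ex_const (-M)]
  refine P.ex_mono fun ω hω => ?_
  have h1 := Real.log_le_log (P.pr_pos (fun ω => (X ω, Y ω)) hω) (h (X ω) (Y ω))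
  rw [Real.log_mul (Real.exp_pos _).ne' (P.pr_pos X hω).ne', Real.log_exp] at h1
  linarith

open Classical in
/-- mass of the event `Y ∈ F (X)` under a pointwise bound -/
theorem prE_le_of_pr (P : Law Ω) (X : Ω → S) (Y : Ω → T) (M r : ℝ) (hM : 0 ≤ M) (E : Ω → Prop) (x : S)
    (F : Finset T) (hF : (#F : ℝ) ≤ r) (h : ∀ y, P.pr (fun ω => (X ω, Y ω)) (x, y) ≤ M * P.pr X x)
    (hE : ∀ ω, 0 < P.w ω → E ω → X ω = x ∧ Y ω ∈ F) : prE P E ≤ r * M * P.pr X x := by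
  have h1 : prE P E ≤ ∑ y ∈ F, P.pr (fun ω => (X ω, Y ω)) (x, y) := by
    have e1 : ∑ y ∈ F, P.pr (fun ω => (X ω, Y ω)) (x, y) =
        ∑ ω ∈ univ.filter (fun ω => X ω = x ∧ Y ω ∈ F), P.w ω := by
      rw [← Finset.sum_fiberwise_of_maps_to (g := Y) (t := F) (fun ω hω => (Finset.mem_filter.1 hω).2.2)]
      refine Finset.sum_congr rfl fun y hy => ?_
      unfold Law.pr
      refine Finset.sum_congr ?_ fun _ _ => rfl
      ext ω
      simp only [Finset.mem_filter, Finset.mem_univ, true_and, Prod.mk.injEq]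
      constructor
      · rintro ⟨a, b⟩; exact ⟨⟨a, b ▸ hy⟩, b⟩
      · rintro ⟨⟨a, -⟩, b⟩; exact ⟨a, b⟩
    rw [e1]
    unfold prE
    rw [← Finset.sum_filter_ne_zero]
    refine Finset.sum_le_sum_of_subset_of_nonneg (fun ω hω => ?_) fun ω _ _ => P.nn ω
    simp only [Finset.mem_filter, Finset.mem_univ, true_and] at hω ⊢
    exact hE ω (lt_of_le_of_ne (P.nn ω) (Ne.symm hω.2)) hω.1
  refine h1.trans ((Finset.sum_le_card_nsmul _ _ _ fun y _ => h y).trans ?_)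
  rw [nsmul_eq_mul, mul_assoc]
  exact mul_le_mul_of_nonneg_right hF (mul_nonneg hM (P.pr_nonneg _ _))

open Classical in
theorem prE_fib (P : Law Ω) (X : Ω → S) (E : Ω → Prop) :
    prE P E = ∑ x ∈ img X, prE P fun ω => E ω ∧ X ω = x := by
  unfold prE
  rw [← Finset.sum_fiberwise_of_maps_to (g := X) (t := img X) (by simp)]
  refine Finset.sum_congr rfl fun x _ => Finset.sum_congr ?_ fun _ _ => rfl
  ext ω; simp

theorem pr_eq_prE (P : Law Ω) (X : Ω → S) (x : S) : P.pr X x = prE P fun ω => X ω = x := by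
  unfold prE Law.pr
  exact Finset.sum_congr (by ext; simp) fun _ _ => rfl

/-- mass of the event `Y ∈ F (X)` under a pointwise bound, summed over `X` -/
theorem prE_le_of_pr' (P : Law Ω) (X : Ω → S) (Y : Ω → T) (M r : ℝ) (hM : 0 ≤ M) (E : Ω → Prop)
    (F : S → Finset T) (hF : ∀ x, (#(F x) : ℝ) ≤ r)
    (h : ∀ x y, P.pr (fun ω => (X ω, Y ω)) (x, y) ≤ M * P.pr X x)
    (hE : ∀ ω, 0 < P.w ω → E ω → Y ω ∈ F (X ω)) : prE P E ≤ r * M := by
  rw [prE_fib P X E]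
  refine (Finset.sum_le_sum fun x _ => prE_le_of_pr P X Y M r hM (fun ω => E ω ∧ X ω = x) x (F x) (hF x) (h x)
    fun ω hω e => ⟨e.2, e.2 ▸ hE ω hω e.1⟩).trans ?_
  rw [← Finset.mul_sum, P.sum_pr_image, mul_one]

theorem prE_true (P : Law Ω) : prE P (fun _ => True) = 1 := by
  unfold prE; simp [P.sum_one]

/-- constants are small powers of `D` -/
theorem ev_log (c o : ℝ) (ho : 0 < o) : ∃ N₀ : ℕ, ∀ N ≥ N₀, c ≤ o * Real.log ((2 ^ N : ℕ) : ℝ) := by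
  have h2 : 0 < Real.log 2 := Real.log_pos (by norm_num)
  obtain ⟨N₀, h⟩ := exists_nat_ge (c / (o * Real.log 2))
  refine ⟨N₀, fun N hN => ?_⟩
  have hN' : (N₀ : ℝ) ≤ N := by exact_mod_cast hN
  rw [div_le_iff₀ (by positivity)] at h
  push_cast
  rw [Real.log_pow]
  nlinarith [mul_pos ho h2]

end

end Vale.Agent.P076N.AT
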