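import Vale.Agent.P076N.AT.Ifc

/-!
# P076N / AT : geometry of chains of nodes
-/

set_option linter.all false

open Finset

namespace Vale.Agent.P076N

noncomputable section

variable {m : ℕ}

theorem ediv_eq_iff_Ico {q : ℤ} (hq : 0 < q) (a c : ℤ) : a / q = c ↔ q * c ≤ a ∧ a < q * (c + 1) := by
  constructor
  · rintro rfl
    have h1 := Int.mul_ediv_add_emod a q
    have h2 := Int.emod_nonneg a hq.ne'
    have h3 := Int.emod_lt_of_pos a hq
    constructor <;> nlinarith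
  · rintro ⟨h1, h2⟩
    have h3 : c ≤ a / q := (Int.le_ediv_iff_mul_le hq).2 (by linarith [mul_comm q c])
    have h4 : a / q < c + 1 := (Int.ediv_lt_iff_lt_mul hq).2 (by linarith [mul_comm q (c + 1)])
    omega

theorem mem_below {D : ℕ} (hD : 0 < D) (r : ℕ) (c τ : Zv m) : τ ∈ below D r c ↔ dv ((D : ℤ) ^ r) τ = c := by
  have hq : (0 : ℤ) < (D : ℤ) ^ r := by positivity
  simp only [below, Fintype.mem_piFinset, Finset.mem_Ico, funext_iff, dv, ediv_eq_iff_Ico hq]

theorem mem_below_cap {D : ℕ} (hD : 0 < D) (K : ℕ) (c τ : Zv m) : τ ∈ below D K c ↔ cap D K 0 τ = c := by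
  rw [mem_below hD]; simp [cap]

theorem below_zero (D : ℕ) (c : Zv m) : below D 0 c = {c} := by
  ext τ
  simp only [below, Fintype.mem_piFinset, Finset.mem_Ico, pow_zero, one_mul, Finset.mem_singleton, funext_iff]
  exact forall_congr' fun l => by omega

theorem card_below (D r : ℕ) (c : Zv m) : #(below D r c) = D ^ (r * m) := by
  have : ∀ l, #(Finset.Ico ((D : ℤ) ^ r * c l) ((D : ℤ) ^ r * (c l + 1))) = D ^ r := by
    intro l
    rw [Int.card_Ico, show (D : ℤ) ^ r * (c l + 1) - (D : ℤ) ^ r * c l = ((D ^ r : ℕ) : ℤ) by push_cast; ring]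
    exact Int.toNat_natCast _
  simp [below, Fintype.card_piFinset, this, pow_mul]

theorem cap_top (D K : ℕ) (τ : Zv m) : cap D K K τ = τ := by
  funext l; simp [cap, dv]

theorem dv_cap {D : ℕ} (hD : 0 < D) {K i j : ℕ} (hij : i ≤ j) (hj : j ≤ K) (τ : Zv m) :
    dv ((D : ℤ) ^ (j - i)) (cap D K j τ) = cap D K i τ := by
  funext l
  simp only [cap, dv]
  rw [Int.ediv_ediv_of_nonneg (by positivity), ← pow_add]
  congr 2; omega

theorem UU_top (D K : ℕ) (V : ℕ → Finset (Nd m)) (S : Nd m) : UU D K V K S = {S.c} := by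
  simp [UU, below_zero]

theorem nd_zero (D K : ℕ) (f : Nd m × Zv m) : nd D K f 0 = f.1 := rfl

theorem nd_succ (D K : ℕ) (f : Nd m × Zv m) (i : ℕ) :
    nd D K f (i + 1) = par D (nd D K f i) (cap D K (i + 1) f.2) := by
  simp [nd, ch]

theorem mem_flags {D K : ℕ} (hD : 0 < D) {V : ℕ → Finset (Nd m)} {f : Nd m × Zv m} :
    f ∈ flags D K V ↔ f.1 ∈ V 0 ∧ cap D K 0 f.2 = f.1.c ∧ ∀ i, 1 ≤ i → i ≤ K → nd D K f i ∈ V i := by
  obtain ⟨x, τ⟩ := f
  simp only [flags, Finset.mem_biUnion, Finset.mem_image, Prod.mk.injEq, UU, Finset.mem_filter, Nat.sub_zero,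
    mem_below_cap hD, Finset.mem_Icc, zero_add, nd]
  constructor
  · rintro ⟨x', hx, τ', ⟨h1, h2⟩, rfl, rfl⟩
    exact ⟨hx, h1, fun i h3 h4 => h2 i ⟨h3, h4⟩⟩
  · rintro ⟨h1, h2, h3⟩
    exact ⟨x, h1, τ, ⟨h2, fun i hi => h3 i hi.1 hi.2⟩, rfl, rfl⟩

theorem nd_mem {D K : ℕ} (hD : 0 < D) {V : ℕ → Finset (Nd m)} {f : Nd m × Zv m} (h : f ∈ flags D K V)
    {i : ℕ} (hi : i ≤ K) : nd D K f i ∈ V i := by
  rw [mem_flags hD] at h
  rcases Nat.eq_zero_or_pos i with rfl | h0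
  · exact h.1
  · exact h.2.2 i h0 hi

theorem nd_c {D K : ℕ} {f : Nd m × Zv m} (h : cap D K 0 f.2 = f.1.c) (i : ℕ) : (nd D K f i).c = cap D K i f.2 := by
  cases i with
  | zero => exact h.symm
  | succ i => rw [nd_succ]; rfl

theorem nd_T (D K : ℕ) (f : Nd m × Zv m) (i : ℕ) : (nd D K f i).T = f.1.T / (D : ℤ) ^ (2 * i) := by
  induction i with
  | zero => simp [nd_zero]
  | succ i ih =>
    rw [nd_succ]
    show (nd D K f i).T / (D : ℤ) ^ 2 = _
    rw [ih, Int.ediv_ediv_of_nonneg (by positivity), ← pow_add]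
    congr 2

theorem vel_apply (D i : ℕ) (c : Zv m) (l : Fin m) : vel D i c l = (c l : ℝ) / (D : ℝ) ^ i := by
  simp [vel, toV, div_eq_inv_mul]

theorem ediv_real {q : ℤ} (hq : 0 < q) (a : ℤ) :
    (q : ℝ) * ((a / q : ℤ) : ℝ) ≤ a ∧ (a : ℝ) < q * ((a / q : ℤ) : ℝ) + q := by
  obtain ⟨h1, h2⟩ := (ediv_eq_iff_Ico hq a _).1 rfl
  constructor
  · exact_mod_cast h1
  · have : (a : ℝ) < q * (((a / q : ℤ) : ℝ) + 1) := by exact_mod_cast h2
    linarith

/-- velocities of the caps of one flag -/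
theorem vel_cap {D : ℕ} (hD : 0 < D) {K i j : ℕ} (hij : i ≤ j) (hj : j ≤ K) (τ : Zv m) (l : Fin m) :
    0 ≤ vel D j (cap D K j τ) l - vel D i (cap D K i τ) l ∧
      vel D j (cap D K j τ) l - vel D i (cap D K i τ) l ≤ 1 / (D : ℝ) ^ i := by
  have hD' : (0 : ℝ) < D := by exact_mod_cast hD
  rw [vel_apply, vel_apply, ← dv_cap hD hij hj]
  obtain ⟨h1, h2⟩ := ediv_real (q := (D : ℤ) ^ (j - i)) (by positivity) (cap D K j τ l)
  push_cast at h1 h2
  simp only [dv]
  set a : ℝ := (cap D K j τ l : ℝ)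
  set b : ℝ := ((cap D K j τ l / (D : ℤ) ^ (j - i) : ℤ) : ℝ)
  have e : (D : ℝ) ^ j = (D : ℝ) ^ (j - i) * (D : ℝ) ^ i := by rw [← pow_add]; congr 1; omega
  have hp : (0 : ℝ) < (D : ℝ) ^ (j - i) := by positivity
  have hi : (0 : ℝ) < (D : ℝ) ^ i := by positivity
  have e2 : a / (D : ℝ) ^ j - b / (D : ℝ) ^ i = (a - (D : ℝ) ^ (j - i) * b) / (D : ℝ) ^ (j - i) / (D : ℝ) ^ i := by
    rw [e]; field_simp
  rw [e2]
  constructor
  · exact div_nonneg (div_nonneg (by linarith) hp.le) hi.le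
  · refine div_le_div_of_nonneg_right ?_ hi.le
    rw [div_le_one hp]; linarith

theorem abs_vel_cap {D : ℕ} (hD : 0 < D) {K i j : ℕ} (hij : i ≤ j) (hj : j ≤ K) (τ : Zv m) (l : Fin m) :
    |vel D j (cap D K j τ) l - vel D i (cap D K i τ) l| ≤ 1 / (D : ℝ) ^ i := by
  obtain ⟨h1, h2⟩ := vel_cap hD hij hj τ l
  rw [abs_of_nonneg h1]; exact h2

/-- velocities of flags with bounded roots -/
theorem abs_vel_le {D : ℕ} (hD : 0 < D) {K j : ℕ} (hj : j ≤ K) {τ : Zv m} {l : Fin m}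
    (h : |cap D K 0 τ l| ≤ 10) : |vel D j (cap D K j τ) l| ≤ 11 := by
  have h1 := abs_vel_cap hD (Nat.zero_le j) hj τ l
  rw [vel_apply D 0] at h1
  have h2 : |((cap D K 0 τ l : ℤ) : ℝ)| ≤ 10 := by exact_mod_cast h
  simp only [pow_zero, div_one] at h1
  have := abs_le.1 h1
  have := abs_le.1 h2
  rw [abs_le]; constructor <;> linarith

/-- the root of a flag lies on its nodes -/
theorem nd_near {D K : ℕ} (hD : 2 ≤ D) {f : Nd m × Zv m} (h : cap D K 0 f.2 = f.1.c) {j : ℕ} (hj : j ≤ K) :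
    NearR D 3 j f.1 (nd D K f j) := by
  have hD0 : 0 < D := by omega
  have hD' : (2 : ℝ) ≤ D := by exact_mod_cast hD
  have hT : ∀ i, (D : ℝ) ^ (2 * i) * ((nd D K f i).T : ℝ) ≤ f.1.T ∧
      (f.1.T : ℝ) < (D : ℝ) ^ (2 * i) * ((nd D K f i).T : ℝ) + (D : ℝ) ^ (2 * i) := by
    intro i
    have := ediv_real (q := (D : ℤ) ^ (2 * i)) (by positivity) f.1.T
    rw [← nd_T] at this
    push_cast at this
    exact this
  refine ⟨fun l => ?_, ?_⟩
  · induction j with
    | zero => simp [nd_zero, xpos, vel_apply]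
    | succ j ih =>
      have ih := abs_le.1 (ih (by omega))
      obtain ⟨t1, t2⟩ := hT j
      have hc := nd_c h j
      have hc' := nd_c h (j + 1)
      set S := nd D K f j with hS
      have ho : (nd D K f (j + 1)).o l = S.o l / D - (S.T * (cap D K (j + 1) f.2 l - D * S.c l)) / (D : ℤ) ^ 2 := by
        rw [nd_succ]; rfl
      have hd : cap D K (j + 1) f.2 l / (D : ℤ) = S.c l := by
        have := congrFun (dv_cap hD0 (Nat.le_succ j) hj f.2) l
        rw [hc, ← this]; simp [dv]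
      obtain ⟨d1, d2⟩ := ediv_real (q := (D : ℤ)) (by positivity) (cap D K (j + 1) f.2 l)
      rw [hd] at d1 d2
      obtain ⟨o1, o2⟩ := ediv_real (q := (D : ℤ)) (by positivity) (S.o l)
      obtain ⟨r1, r2⟩ := ediv_real (q := (D : ℤ) ^ 2) (by positivity) (S.T * (cap D K (j + 1) f.2 l - D * S.c l))
      rw [hc', ho, vel_apply]
      rw [vel_apply] at ih
      push_cast at d1 d2 o1 o2 r1 r2 ⊢
      set c' : ℝ := (cap D K (j + 1) f.2 l : ℝ)
      set c : ℝ := (S.c l : ℝ)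
      set o : ℝ := (S.o l : ℝ)
      set a : ℝ := ((S.o l / (D : ℤ) : ℤ) : ℝ)
      set r : ℝ := ((S.T * (cap D K (j + 1) f.2 l - D * S.c l) / (D : ℤ) ^ 2 : ℤ) : ℝ)
      set T : ℝ := (f.1.T : ℝ)
      set T' : ℝ := (S.T : ℝ)
      set x : ℝ := (xpos f.1 l : ℝ)
      set P : ℝ := (D : ℝ) ^ j with hP
      have hP0 : 0 < P := by positivity
      have e1 : (D : ℝ) ^ (j + 1) = P * D := pow_succ _ _
      have e2 : (D : ℝ) ^ (2 * j) = P * P := by rw [two_mul, pow_add]
      rw [e2] at t1 t2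
      rw [e1]
      have hDp : (0 : ℝ) < D := by linarith
      set ρ := T - P * P * T' with hρ
      set Δ := c' - D * c with hΔ
      set r2' := T' * Δ - (D : ℝ) ^ 2 * r with hr2
      have key : x - T * (c' / (P * D)) - P * D * (a - r) =
          (x - T * (c / P) - P * o) + P * (o - D * a) - ρ * Δ / (P * D) - P * r2' / D := by
        rw [hρ, hΔ, hr2]; field_simp; ring
      have b1 : 0 ≤ ρ * Δ / (P * D) := div_nonneg (mul_nonneg (by linarith) (by linarith)) (by positivity)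
      have b2 : ρ * Δ / (P * D) ≤ P := by
        rw [div_le_iff₀ (by positivity)]
        have : ρ * Δ ≤ (P * P) * D := mul_le_mul (by linarith) (by linarith) (by linarith) (by positivity)
        linarith
      have b3 : 0 ≤ P * r2' / D := div_nonneg (mul_nonneg hP0.le (by linarith)) hDp.le
      have b4 : P * r2' / D ≤ P * D := by
        rw [div_le_iff₀ hDp]
        have : r2' ≤ (D : ℝ) ^ 2 := by linarith
        nlinarith
      have b5 : 0 ≤ P * (o - D * a) := mul_nonneg hP0.le (by linarith)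
      have b6 : P * (o - D * a) ≤ P * D := mul_le_mul_of_nonneg_left (by linarith) hP0.le
      have b7 : 2 * P ≤ P * D := by nlinarith
      rw [key, abs_le]
      constructor <;> linarith [ih.1, ih.2]
  · obtain ⟨t1, t2⟩ := hT j
    have : (0 : ℝ) < (D : ℝ) ^ (2 * j) := by positivity
    rw [abs_le]; constructor <;> linarith

end

end Vale.Agent.P076N
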