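import Vale.Agent.P076N.Defs

/-!
# P076N / AT : the interface between the flag law (FL, section 3) and the theorems AT1, AT2, AT3 (section 6)
-/

set_option linter.all false

open Finset Vale.Agent.P127 Vale.Agent.P127.Stk

namespace Vale.Agent.P076N

noncomputable section

variable {m : ℕ}

/-- the node of level `i` of a flag -/
def nd (D K : ℕ) (f : Nd m × Zv m) (i : ℕ) : Nd m := ch D K 0 f.1 f.2 i

/-- the root `x` lies in the `Cs`-dilate of the node `S` of level `j` -/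
def NearR (D : ℕ) (Cs : ℝ) (j : ℕ) (x S : Nd m) : Prop :=
  (∀ l, |(xpos x l : ℝ) - x.T * vel D j S.c l - (D : ℝ) ^ j * S.o l| ≤ Cs * (D : ℝ) ^ j) ∧
    |(x.T : ℝ) - S.T * (D : ℝ) ^ (2 * j)| ≤ Cs * (D : ℝ) ^ (2 * j)

/-- two random flags `a`, `b`: the root of `a` is near the level `K'` node of `b`, the level `w` cap of `a` is
near the cap of that node -/
structure Gl (D K : ℕ) (V : ℕ → Finset (Nd m)) (Cs : ℝ) (w K' : ℕ) {Ω : Type} [Fintype Ω] (P : Law Ω)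
    (a b : Ω → Nd m × Zv m) : Prop where
  mem : ∀ ω, 0 < P.w ω → a ω ∈ flags D K V ∧ b ω ∈ flags D K V
  near : ∀ ω, 0 < P.w ω → NearR D Cs K' (a ω).1 (nd D K (b ω) K')
  dir : ∀ ω, 0 < P.w ω → ∀ l,
    |vel D w (cap D K w (a ω).2) l - vel D K' (nd D K (b ω) K').c l| ≤ Cs / (D : ℝ) ^ w

/-- what the flag law `P` gives besides the numeric axioms; `o` is the error in the unit `log D` -/
structure Flw (D K : ℕ) (V : ℕ → Finset (Nd m)) (A : ℕ → ℝ) (Cs o : ℝ) (d : Dat) {Ω : Type} [Fintype Ω]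
    (P : Law Ω) (f : Ω → Nd m × Zv m) : Prop where
  mem : ∀ ω, 0 < P.w ω → f ω ∈ flags D K V
  /-- MASS, with the entropy of the top node -/
  mass : Real.log (A 0 ^ 2 * #(V 0)) ≤ Real.log (A K ^ 2) + P.H (fun ω => nd D K (f ω) K) +
    (m * K + 2 * K - 2 * d.A 0 K + o) * Real.log D
  /-- the root is almost uniform -/
  root : Real.log #(V 0) - o * Real.log D ≤ P.H fun ω => (f ω).1
  /-- given the root the caps are spread (pointwise) -/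
  caps : ∀ i ≤ K, ∀ x c, P.pr (fun ω => ((f ω).1, cap D K i (f ω).2)) (x, c) ≤
    Real.exp ((o - d.G 0 i) * Real.log D) * P.pr (fun ω => (f ω).1) x
  /-- the standard path is exact -/
  up : ∀ i ≤ K, hc P (fun ω => (f ω).1) (fun ω => nd D K (f ω) i) ≤
    ((m + 2) * i - d.Φ 0 i - 2 * d.A 0 i + o) * Real.log D
  /-- the standard path `0 → w` glued with a path `w → K'` -/
  glue : ∀ (w K' : ℕ) (z : ℝ), w ≤ K' → K' ≤ K → Path d.El w K' z →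
    ∃ (Ω' : Type) (_ : Fintype Ω') (P' : Law Ω') (π₁ π₂ : Ω' → Ω), (∀ ω, P'.pr π₁ ω = P.w ω) ∧
      (∀ ω, P'.pr π₂ ω = P.w ω) ∧ Gl D K V Cs w K' P' (f ∘ π₁) (f ∘ π₂) ∧
      ((m + 2) * K' - d.Φ 0 w - 2 * d.A 0 w - z - o) * Real.log D ≤
        hc P' (fun ω => (f (π₁ ω)).1) (fun ω => nd D K (f (π₂ ω)) K')

/-- **[FL]** the flag law of a valid structure with types -/
def StFL (m : ℕ) : Prop := ∃ O : Orc, ∀ π : Par, π.Pos → ∃ Cs : ℝ, 1 ≤ Cs ∧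
  ∀ C B c o : ℝ, 1 ≤ C → 1 ≤ B → 0 < c → 0 < o → ∃ N₀ : ℕ, ∀ N ≥ N₀,
    ∀ (Q : ℝ) (F : Amp m (2 ^ N) π.K C Q) (V : ℕ → Finset (Nd m)) (A Γ : ℕ → ℝ) (gr : Prop), Valid F V A Γ →
      (∀ x ∈ V 0, (∀ l, |x.c l| ≤ 10) ∧ 0 ≤ x.T ∧ x.T < ((2 ^ N : ℕ) : ℤ) ^ (2 * π.K)) →
      (gr → GphA B (V 0)) → WGA B (((2 : ℤ) ^ N) ^ π.K) (V 0) →
      (∀ t ∈ π.Tr, t.2.1 + t.2.2 ≤ π.K → 1 ≤ t.2.2 → Cons (2 ^ N) V t.2.1 t.2.2 ∧
        (Nar (2 ^ N) V t.1 t.2.1 t.2.2 ∨ Brd (2 ^ N) π.K V (((2 : ℝ) ^ N) ^ (-c)) t.1 t.2.1 t.2.2)) →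
      ∃ (d : Dat) (Ω : Type) (_ : Fintype Ω) (P : Law Ω) (f : Ω → Nd m × Zv m),
        Ax m gr O π d ∧ Flw (2 ^ N) π.K V A Cs o d P f

end

end Vale.Agent.P076N
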