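import Vale.Agent.P076N.AT.Core

/-!
# P076N / AT : the assemblies AT1 - AT4
-/

set_option linter.all false

open Finset Vale.Agent.P127 Vale.Agent.P127.Stk

namespace Vale.Agent.P076N.AT

open FL

noncomputable section

variable {m : ℕ}

theorem two_pos' (N : ℕ) : 0 < 2 ^ N := by positivity

theorem frac_ge (m : ℕ) (hm : 1 ≤ m) : (1 : ℝ) ≤ 2 * m / (m + 1) := by
  have : (1 : ℝ) ≤ m := by exact_mod_cast hm
  rw [le_div_iff₀ (by positivity)]; linarith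

theorem frac_ge' (m : ℕ) : (1 : ℝ) ≤ 2 * (m + 1) / (m + 2) := by
  have : (0 : ℝ) ≤ m := Nat.cast_nonneg _
  rw [le_div_iff₀ (by positivity)]; linarith

theorem frac_eq (m : ℕ) (K : ℝ) : K * (2 * m / (m + 1)) = 2 * K - 2 * (K / (m + 1)) := by
  field_simp; ring

theorem frac_eq' (m a K : ℕ) (h : K = (m + 2) * a) : (K : ℝ) * (2 * (m + 1) / (m + 2)) = 2 * K - 2 * a := by
  subst h; push_cast; field_simp; ring

theorem zero_case {D K N : ℕ} {C Q α t : ℝ} (F : Amp m D K C Q) (hC : 1 ≤ C) (X : Finset (Nd m)) (h : 0 = α) :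
    α ^ 2 * #X ≤ ((2 : ℝ) ^ N) ^ t * Q := by
  have := F.Q_nonneg hC
  rw [← h]; simp only [ne_eq, OfNat.ofNat_ne_zero, not_false_eq_true, zero_pow, zero_mul]; positivity

theorem at1 (m : ℕ) (hm : 2 ≤ m) (hB : B2 m) (hs : ∀ K C, SET m K C) (hx : FLX m) (hn : N1 m) : AT1 m := by
  intro ε hε
  obtain ⟨O, hO⟩ := hx
  obtain ⟨π, hπ, h1, hn⟩ := hn O (ε / 4) (by positivity)
  refine ⟨π.K, hπ.1, fun C B hC hB1 => ?_⟩
  obtain ⟨cn, θ₁, -, hθ₁, hO⟩ := hO π hπ C B hB1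
  obtain ⟨N₀, hc⟩ := core hB hs O π C B cn θ₁ hC hθ₁ hO 1 (ε / 4) one_pos (by positivity)
  refine ⟨N₀, fun N hN Q F X α hα hX hg => ?_⟩
  rcases hα.eq_or_lt with h0 | h0
  · exact zero_case F hC X h0
  have hK : (1 : ℝ) ≤ π.K := by exact_mod_cast hπ.1
  obtain ⟨V₀, v1, v2, v3, v4⟩ := prep (two_pos' N) F X α h0 hπ.1 hX
  rcases hc N hN Q F X α True V₀ h0 v1 (fun x hx => ⟨(hX x hx).1, (hX x hx).2.1, (hX x hx).2.2.1⟩) v2 v3 v4
    (hB.lat.gph m B _ X hg) (fun _ => hg) with h | ⟨G, o, ax, -, -⟩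
  · refine h.trans (rpow_mono N (F.Q_nonneg hC) ?_)
    nlinarith [frac_ge m (by omega)]
  · have h2 : (π.K : ℝ) / (m + 1) - ε / 4 * π.K ≤ G.AA 0 π.K := hn _ ax
    refine o.bound ?_
    rw [mul_add, frac_eq]
    nlinarith

theorem at2 (m : ℕ) (hm : 2 ≤ m) (hB : B2 m) (hs : ∀ K C, SET m K C) (hx : FLX m) (ha : A2 m) (hn : N2 m) :
    AT2 m := by
  intro c hc0
  obtain ⟨O, hO⟩ := hx
  obtain ⟨η', hη', ha⟩ := ha c hc0
  obtain ⟨θ, hθ, hn⟩ := hn O η' hη'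
  obtain ⟨ε₁, hε₁, ha⟩ := ha θ hθ
  set ε := min ε₁ (c / 16) with hε
  have e1 : ε ≤ ε₁ := min_le_left _ _
  have e2 : ε ≤ c / 16 := min_le_right _ _
  obtain ⟨η, hη, π, hπ, h1, hn⟩ := hn ε (lt_min hε₁ (by positivity))
  set κ := min (min η (c / 4)) (1 / 2) with hκ
  have k0 : 0 < κ := lt_min (lt_min hη (by positivity)) (by norm_num)
  have k1 : κ ≤ η := (min_le_left _ _).trans (min_le_left _ _)
  have k2 : κ ≤ c / 4 := (min_le_left _ _).trans (min_le_right _ _)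
  have k3 : κ ≤ 1 / 2 := min_le_right _ _
  have hK : (1 : ℝ) ≤ π.K := by exact_mod_cast hπ.1
  have h1' : 1 ≤ ε₁ * π.K := h1.trans (mul_le_mul_of_nonneg_right e1 (by linarith))
  refine ⟨κ, k0, π.K, hπ.1, fun C B hC hB1 => ?_⟩
  obtain ⟨cn, θ₁, hcn, hθ₁, hO⟩ := hO π hπ C B hB1
  obtain ⟨c₁, c₂, hc₁, hc₂, hl⟩ := link hB π.K C cn hcn
  obtain ⟨θ', hθ', ha⟩ := ha π.K C B c₁ hB1 hc₁ h1'
  obtain ⟨N₀, hc⟩ := core hB hs O π C B cn θ₁ hC hθ₁ hO (min θ' (1 / (c₂ + 1))) (κ / 4)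
    (lt_min hθ' (by positivity)) (by positivity)
  refine ⟨N₀, fun N hN Q F X α hα hX hg hsp hpl => ?_⟩
  rcases hα.eq_or_lt with h0 | h0
  · exact zero_case F hC X h0
  obtain ⟨V₀, v1, v2, v3, v4⟩ := prep (two_pos' N) F X α h0 hπ.1 hX
  rcases hc N hN Q F X α True V₀ h0 v1 (fun x hx => ⟨(hX x hx).1, (hX x hx).2.1, (hX x hx).2.2.1⟩) v2 v3 v4
    (hB.lat.gph m B _ X hg) (fun _ => hg) with h | ⟨G, o, ax, np, -⟩
  · refine h.trans (rpow_mono N (F.Q_nonneg hC) ?_)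
    nlinarith [frac_ge m (by omega)]
  obtain ⟨h2, h3⟩ := hn _ ax
  change (π.K : ℝ) / (m + 1) - ε * π.K ≤ G.AA 0 π.K at h2
  have hlg : 0 ≤ G.lg := by linarith [o.lg1]
  have hκK : κ ≤ κ * π.K := by nlinarith
  rcases le_or_gt (G.AA 0 π.K) ((π.K : ℝ) / (m + 1) + η * π.K) with h4 | h4
  swap
  · refine o.bound ?_
    rw [mul_sub, frac_eq]
    nlinarith
  obtain ⟨w, K', z, a1, a2, a3, a4, a5, a6, a7⟩ := h3 h4
  change G.ΦA 0 w + 2 * G.AA 0 w + z ≤ K' + ε * π.K at a6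
  have b1 : c₂ * G.e ≤ 1 * G.lg := ar1 o.e hc₂ hlg (lt_min hθ' (by positivity)).le (min_le_right _ _)
  have b2 : G.LK c₁ w 0 K' (((m + 1) * K' - 2 * ε₁ * π.K) * G.lg) := by
    refine (hB.gl π.K C).mono G _ _ w w 0 K' _ _ le_rfl le_rfl (a2.trans a3) ?_ (hl G w K' z a5 a3)
    have b3 : ε * π.K ≤ ε₁ * π.K := mul_le_mul_of_nonneg_right e1 (by linarith)
    have b4 : ((m + 1) * K' - 2 * ε₁ * π.K + 1) * G.lg ≤
        ((m + 2) * K' - G.ΦA 0 w - 2 * G.AA 0 w - z) * G.lg := mul_le_mul_of_nonneg_right (by linarith) hlg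
    linarith
  have b5 := ha G w K' (o.e.trans (mul_le_mul_of_nonneg_right (min_le_left _ _) hlg)) o.flt (o.gph trivial)
    (fun x hx => by rw [o.hN]; exact hsp x (o.sub hx)) (np c hpl) a1 a2 a3 a4 b2 (fun y hy => by
      have := a7 y hy
      change ((m : ℝ) - 1) * y - ε * π.K ≤ G.GA 0 y at this
      have b3 : ε * π.K ≤ ε₁ * π.K := mul_le_mul_of_nonneg_right e1 (by linarith)
      linarith)
  refine of_log N o.Q0 ?_
  rw [← o.lg, mul_sub, frac_eq]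
  have b6 : 2 * π.K - 2 * G.AA 0 π.K + κ / 4 + κ / 4 - c / 2 * π.K ≤
      2 * π.K - 2 * ((π.K : ℝ) / (m + 1)) - π.K * κ := by nlinarith
  have b7 := mul_le_mul_of_nonneg_right b6 hlg
  linarith [o.mass, o.cq]

theorem at3 (m : ℕ) (hm : 2 ≤ m) (hB : B2 m) (hs : ∀ K C, SET m K C) (hx : FLX m) (ha : A3D m)
    (hp : ∀ K C, A3P m K C) (hn : N3 m) : AT3 m := by
  intro η hη
  obtain ⟨O, hO⟩ := hx
  obtain ⟨ε₁, hε₁, ha⟩ := ha (η / 2) (by positivity)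
  set ε := min ε₁ (η / 16) with hε
  have e1 : ε ≤ ε₁ := min_le_left _ _
  have e2 : ε ≤ η / 16 := min_le_right _ _
  obtain ⟨η₃, hη₃, π, a₀, hπ, h1, hKa, hn⟩ := hn O ε (lt_min hε₁ (by positivity))
  set κ := min (min η₃ (η / 4)) (1 / 2) with hκ
  have k0 : 0 < κ := lt_min (lt_min hη₃ (by positivity)) (by norm_num)
  have k1 : κ ≤ η₃ := (min_le_left _ _).trans (min_le_left _ _)
  have k2 : κ ≤ η / 4 := (min_le_left _ _).trans (min_le_right _ _)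
  have k3 : κ ≤ 1 / 2 := min_le_right _ _
  have hK : (1 : ℝ) ≤ π.K := by exact_mod_cast hπ.1
  have b3 : ε * π.K ≤ ε₁ * π.K := mul_le_mul_of_nonneg_right e1 (by linarith)
  have h1' : 1 ≤ ε₁ * π.K := h1.trans b3
  have haK : a₀ ≤ π.K := by rw [hKa]; exact Nat.le_mul_of_pos_left _ (by omega)
  refine ⟨κ, k0, π.K, hπ.1, fun C B hC hB1 => ?_⟩
  obtain ⟨cn, θ₁, hcn, hθ₁, hO⟩ := hO π hπ C B hB1
  obtain ⟨c₁, c₂, hc₁, hc₂, hl⟩ := link hB π.K C cn hcn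
  obtain ⟨θ', hθ', ha⟩ := ha π.K a₀ C B c₁ hB1 hc₁ h1' hKa
  obtain ⟨c₃, hc₃, hp⟩ := hp π.K C
  have hθ : 0 < min (min θ' (1 / (c₂ + 1))) (η / 16 / (c₃ + 1)) :=
    lt_min (lt_min hθ' (by positivity)) (by positivity)
  obtain ⟨N₀, hc⟩ := core hB hs O π C B cn θ₁ hC hθ₁ hO _ (κ / 4) hθ (by positivity)
  refine ⟨N₀, fun N hN Q F X α hα hX hg => ?_⟩
  rcases hα.eq_or_lt with h0 | h0
  · exact ⟨zero_case F hC X h0, fun _ => zero_case F hC X h0⟩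
  obtain ⟨V₀, v1, v2, v3, v4⟩ := prep (two_pos' N) F X α h0 hπ.1 hX
  have hκK : κ ≤ κ * π.K := le_mul_of_one_le_right k0.le hK
  have hηK : η ≤ η * π.K := le_mul_of_one_le_right hη.le hK
  have hf : (π.K : ℝ) ≤ π.K * (2 * (m + 1) / (m + 2)) := le_mul_of_one_le_right (by linarith) (frac_ge' m)
  have k4 : κ * π.K ≤ η₃ * π.K := mul_le_mul_of_nonneg_right k1 (by linarith)
  have k5 : κ * π.K ≤ 1 / 2 * π.K := mul_le_mul_of_nonneg_right k3 (by linarith)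
  rcases hc N hN Q F X α False V₀ h0 v1 (fun x hx => ⟨(hX x hx).1, (hX x hx).2.1, (hX x hx).2.2.1⟩) v2 v3 v4
    hg False.elim with h | ⟨G, o, ax, -, -⟩
  · refine ⟨h.trans (rpow_mono N (F.Q_nonneg hC) ?_), fun _ => h.trans (rpow_mono N (F.Q_nonneg hC) ?_)⟩
    · linarith
    · linarith
  obtain ⟨h2, h3⟩ := hn _ ax
  change (a₀ : ℝ) - ε * π.K ≤ G.AA 0 π.K at h2
  have hlg : 0 ≤ G.lg := by linarith [o.lg1]
  have e3 : ε * π.K ≤ η / 16 * π.K := mul_le_mul_of_nonneg_right e2 (by linarith)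
  refine ⟨o.bound ?_, fun hyp => ?_⟩
  · rw [mul_add, frac_eq' m a₀ π.K hKa]
    linarith
  rcases le_or_gt (G.AA 0 π.K) (a₀ + η₃ * π.K) with h4 | h4
  swap
  · refine o.bound ?_
    rw [mul_sub, frac_eq' m a₀ π.K hKa]
    linarith
  exfalso
  obtain ⟨a1, a2, z, a3, a4⟩ := h3 h4
  change (π.K : ℝ) - ε * π.K ≤ G.ΦA 0 a₀ + 2 * G.AA 0 a₀ at a1
  change G.ΦA 0 a₀ + 2 * G.AA 0 a₀ + z ≤ π.K + ε * π.K at a4
  have a2' : ∀ y ≤ a₀, (m : ℝ) * y - ε * π.K ≤ G.GA 0 y := a2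
  have hV0 : (0 : ℝ) < #(G.V 0) := by exact_mod_cast o.ne.card_pos
  have hVX : (#(G.V 0) : ℝ) ≤ #X := by exact_mod_cast Finset.card_le_card o.sub
  have b8 : η ≤ η * π.K * G.lg := hηK.trans (le_mul_of_one_le_right (by linarith) o.lg1)
  rcases hyp with hyp | ⟨τ, hτ, hyp⟩
  · have b1 : c₂ * G.e ≤ 1 * G.lg := ar1 o.e hc₂ hlg hθ.le ((min_le_left _ _).trans (min_le_right _ _))
    have b2 : G.LK c₁ a₀ 0 π.K (((m + 1) * π.K - 2 * ε₁ * π.K) * G.lg) := by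
      refine (hB.gl π.K C).mono G _ _ a₀ a₀ 0 π.K _ _ le_rfl le_rfl haK ?_ (hl G a₀ π.K z a3 le_rfl)
      have b4 : ((m + 1) * π.K - 2 * ε₁ * π.K + 1) * G.lg ≤
          ((m + 2) * π.K - G.ΦA 0 a₀ - 2 * G.AA 0 a₀ - z) * G.lg := mul_le_mul_of_nonneg_right (by linarith) hlg
      linarith
    have b5 := ha G (o.e.trans (mul_le_mul_of_nonneg_right ((min_le_left _ _).trans (min_le_left _ _)) hlg))
      o.wg b2 fun y hy => by linarith [a2' y hy]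
    have b6 := Real.log_le_log hV0 (hVX.trans hyp)
    rw [rpow_eq, Real.log_exp, ← o.lg] at b6
    linarith
  · have b1 : c₃ * G.e ≤ η / 16 * G.lg := ar1 o.e hc₃ hlg hθ.le (min_le_right _ _)
    have b2 := hp G a₀ τ haK hτ
    have hD : ((2 : ℝ) ^ N) ^ ((π.K : ℝ) / (m + 2)) = (G.D : ℝ) ^ a₀ := by
      have : (π.K : ℝ) / (m + 2) = a₀ := by rw [hKa]; push_cast; field_simp
      rw [this, Real.rpow_natCast, St0.D, o.hN]; push_cast; rfl
    rw [hD] at hyp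
    have hpr : 0 < prof m ((G.D : ℝ) ^ a₀) τ := by unfold prof; positivity
    have hi : (0 : ℝ) < #((G.V 0).image fun x => (dv τ (xpos x), x.T / τ)) := by
      exact_mod_cast (o.ne.image _).card_pos
    have hi' : (#((G.V 0).image fun x => (dv τ (xpos x), x.T / τ)) : ℝ) ≤
        #(X.image fun x => (dv τ (xpos x), x.T / τ)) := by
      exact_mod_cast Finset.card_le_card (Finset.image_subset_image o.sub)
    have b4 : #((G.V 0).image fun x => (dv τ (xpos x), x.T / τ)) * prof m ((G.D : ℝ) ^ a₀) τ *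
        ((2 : ℝ) ^ N) ^ (π.K * η) ≤ #X := by
      refine le_trans ?_ hyp
      rw [mul_right_comm]
      exact mul_le_mul_of_nonneg_right (mul_le_mul_of_nonneg_right hi' (by positivity)) hpr.le
    have b5 := Real.log_le_log (by positivity) b4
    rw [Real.log_mul (by positivity) (by positivity), rpow_eq, Real.log_exp, ← o.lg] at b5
    have b6 : ((m + 2) * a₀ - G.ΦA 0 a₀ - 2 * G.AA 0 a₀ + (m * a₀ - G.GA 0 a₀)) + η / 16 + κ / 4 ≤
        π.K * η / 2 := by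
      have : (π.K : ℝ) = (m + 2) * a₀ := by rw [hKa]; push_cast; ring
      linarith [a2' a₀ le_rfl]
    have b7 := mul_le_mul_of_nonneg_right b6 hlg
    linarith [o.card]

theorem at4 (m : ℕ) (hm : 2 ≤ m) (hB : B2 m) (hs : ∀ K C, SET m K C) (hx : FLX m) (hn : N3 m) : AT4 m := by
  intro b hb K₀
  obtain ⟨O, hO⟩ := hx
  set ε := min (b / 4) (1 / (K₀ + 1)) with hε
  have e1 : ε ≤ b / 4 := min_le_left _ _
  have e2 : ε ≤ 1 / (K₀ + 1) := min_le_right _ _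
  obtain ⟨η₃, hη₃, π, a₀, hπ, h1, hKa, hn⟩ := hn O ε (lt_min (by positivity) (by positivity))
  set κ := min η₃ (1 / 2) with hκ
  have k0 : 0 < κ := lt_min hη₃ (by norm_num)
  have k1 : κ ≤ η₃ := min_le_left _ _
  have k3 : κ ≤ 1 / 2 := min_le_right _ _
  have hK : (1 : ℝ) ≤ π.K := by exact_mod_cast hπ.1
  have hK₀ : K₀ ≤ π.K := by
    have h2 := h1.trans (mul_le_mul_of_nonneg_right e2 (by linarith))
    rw [one_div, inv_mul_eq_div, le_div_iff₀ (by positivity)] at h2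
    have : (K₀ : ℝ) ≤ π.K := by linarith
    exact_mod_cast this
  refine ⟨κ, k0, π.K, hπ.1, hK₀, fun C B hC hB1 => ?_⟩
  obtain ⟨cn, θ₁, hcn, hθ₁, hO⟩ := hO π hπ C B hB1
  obtain ⟨c₃, hk⟩ := hB.mkv π.K C
  have hc₃ := hk.c0
  have hθ : 0 < b / 4 / (c₃ + 1) := by positivity
  obtain ⟨N₀, hc⟩ := core hB hs O π C B cn θ₁ hC hθ₁ hO _ (κ / 4) hθ (by positivity)
  refine ⟨N₀, fun N hN Q F X α y W hα hy hyK hg hX => ?_⟩
  rcases hα.eq_or_lt with h0 | h0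
  · exact zero_case F hC X h0
  have hya : y ≤ a₀ := by rw [hKa] at hyK; exact Nat.le_of_mul_le_mul_left hyK (by omega)
  have hyK' : y ≤ π.K := by nlinarith
  have hT : ∀ x ∈ X, x.T < ((2 ^ N : ℕ) : ℤ) ^ (2 * π.K) := fun x hx => by
    have := (hX x hx).2.2.1
    push_cast; exact this
  obtain ⟨V₀, v1, v5, v2, v3, v4⟩ := prep4 (two_pos' N) F X α h0 y W hy hyK'
    fun x hx => ⟨(hX x hx).2.1, hT x hx, by convert (hX x hx).2.2.2.1⟩
  have hκK : κ ≤ κ * π.K := by nlinarith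
  rcases hc N hN Q F X α False V₀ h0 v1 (fun x hx => ⟨(hX x hx).1, (hX x hx).2.1, hT x hx⟩) v2 v3 v4
    hg False.elim with h | ⟨G, o, ax, -, hV⟩
  · refine h.trans (rpow_mono N (F.Q_nonneg hC) ?_)
    nlinarith [frac_ge' m]
  obtain ⟨-, h3⟩ := hn _ ax
  have hlg : 0 ≤ G.lg := by linarith [o.lg1]
  rcases le_or_gt (G.AA 0 π.K) (a₀ + η₃ * π.K) with h4 | h4
  swap
  · refine o.bound ?_
    rw [mul_sub, frac_eq' m a₀ π.K hKa]
    nlinarith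
  exfalso
  have a2 : (m : ℝ) * y - ε * π.K ≤ G.GA 0 y := (h3 h4).2.1 y hya
  have b1 : c₃ * G.e ≤ b / 4 * G.lg := ar1 o.e hc₃ hlg hθ.le le_rfl
  have b2 := hk.cap G 0 y (Nat.zero_le _) hyK'
  have hN' := o.hN
  subst hN'
  have b3 := hc_le_logR G.P (G.cp y) (fun ω => (G.cp 0 ω, G.x ω)) _ fun ω _ =>
    ⟨_, (hX (G.x ω) (o.sub ((mem_flags (two_pos' _)).1 ω.2).1)).2.2.2.2, fun ω' _ e => by
      have e' : G.x ω' = G.x ω := congrArg Prod.snd e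
      have hm' := (mem_flags (two_pos' _)).1 ω'.2
      refine Finset.mem_image.2 ⟨ω'.1.2, Finset.mem_filter.2 ⟨?_, ?_⟩, rfl⟩
      · rw [mem_below_cap (two_pos' _), ← e']; exact hm'.2.1
      · rw [← e']; exact v5 (hV y (hm'.2.2 y hy hyK'))⟩
  rw [rpow_eq, Real.log_exp, ← o.lg] at b3
  have e3 : ε * π.K ≤ b / 4 * π.K := mul_le_mul_of_nonneg_right e1 (by linarith)
  have b4 : (m : ℝ) * y - b * π.K + b / 4 + b / 2 ≤ G.GA 0 y := by nlinarith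
  have b5 := mul_le_mul_of_nonneg_right b4 hlg
  nlinarith [o.lg1]

end

end Vale.Agent.P076N.AT
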