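import Vale.Agent.P076N.AT.Geo

/-!
# P076N / AT : the initial alive sets (remove the roots that see a heavy top node)
-/

set_option linter.all false

open Finset

namespace Vale.Agent.P076N

noncomputable section

variable {m : ℕ}

/-- the nodes one level below `S'` whose parent can be `S'` -/
def pre (D : ℕ) (S' : Nd m) : Finset (Nd m) :=
  (Finset.Ico ((D : ℤ) ^ 2 * S'.T) ((D : ℤ) ^ 2 * (S'.T + 1))).biUnion fun T =>
    (below D 1 fun l => S'.o l + (T * (S'.c l - D * (S'.c l / D))) / (D : ℤ) ^ 2).image fun o => ⟨dv D S'.c, o, T⟩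

theorem card_pre (D : ℕ) (S' : Nd m) : #(pre D S') ≤ D ^ (m + 2) := by
  unfold pre
  refine (Finset.card_biUnion_le_card_mul _ _ (D ^ m) fun T _ => ?_).trans ?_
  · refine Finset.card_image_le.trans ?_
    rw [card_below, one_mul]
  · rw [Int.card_Ico, show (D : ℤ) ^ 2 * (S'.T + 1) - (D : ℤ) ^ 2 * S'.T = ((D ^ 2 : ℕ) : ℤ) by push_cast; ring,
      Int.toNat_natCast, ← pow_add, add_comm]

theorem mem_pre {D : ℕ} (hD : 0 < D) {S : Nd m} {c' : Zv m} (h : dv D c' = S.c) : S ∈ pre D (par D S c') := by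
  have hq : (0 : ℤ) < (D : ℤ) ^ 2 := by positivity
  unfold pre
  simp only [Finset.mem_biUnion, Finset.mem_image, Finset.mem_Ico]
  refine ⟨S.T, (ediv_eq_iff_Ico hq _ _).1 rfl, S.o, ?_, ?_⟩
  · rw [mem_below hD]
    funext l
    have : c' l / D = S.c l := congrFun h l
    simp [dv, par, parB, ball, this]
  · ext1
    · exact h
    · rfl
    · rfl

/-- the nodes `j` levels below -/
def preN (D : ℕ) : ℕ → Nd m → Finset (Nd m)
  | 0, S => {S}
  | j + 1, S => (pre D S).biUnion (preN D j)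

theorem card_preN (D : ℕ) (j : ℕ) (S : Nd m) : #(preN D j S) ≤ D ^ ((m + 2) * j) := by
  induction j generalizing S with
  | zero => simp [preN]
  | succ j ih =>
    refine (Finset.card_biUnion_le_card_mul _ _ _ fun S' _ => ih S').trans ?_
    rw [mul_add, mul_one, pow_add, mul_comm]
    exact Nat.mul_le_mul_left _ (card_pre D S)

theorem mem_preN {D K : ℕ} (hD : 0 < D) {f : Nd m × Zv m} (h : cap D K 0 f.2 = f.1.c) {j : ℕ} (hj : j ≤ K) :
    f.1 ∈ preN D j (nd D K f j) := by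
  induction j with
  | zero => simp [preN, nd_zero]
  | succ j ih =>
    simp only [preN, Finset.mem_biUnion]
    refine ⟨nd D K f j, ?_, ih (by omega)⟩
    rw [nd_succ]
    refine mem_pre hD ?_
    rw [nd_c h, ← dv_cap hD (Nat.le_succ j) hj]
    simp

theorem nd_T_top {D K : ℕ} (hD : 0 < D) {f : Nd m × Zv m} (h0 : 0 ≤ f.1.T) (h1 : f.1.T < (D : ℤ) ^ (2 * K)) :
    (nd D K f K).T = 0 := by
  rw [nd_T]; exact Int.ediv_eq_zero_of_lt h0 h1

theorem Amp.Q_nonneg {D K : ℕ} {C Q : ℝ} (F : Amp m D K C Q) (hC : 1 ≤ C) : 0 ≤ Q := by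
  have := F.top ∅ (by simp)
  simp only [Finset.sum_empty, zero_mul] at this
  by_contra h
  push Not at h
  nlinarith

open Classical in
/-- few roots see a heavy top node -/
theorem heavy {D K : ℕ} (hD : 0 < D) {C Q : ℝ} (F : Amp m D K C Q) (X : Finset (Nd m)) (α : ℝ) (hα : 0 < α)
    (hX : ∀ x ∈ X, 0 ≤ x.T ∧ x.T < (D : ℤ) ^ (2 * K)) :
    α ^ 2 * ((#X : ℝ) - #(X.filter fun x => ∀ τ ∈ below D K x.c,
      F.a K (nd D K (x, τ) K) {(nd D K (x, τ) K).c} ≤ α * (D : ℝ) ^ K)) ≤ C * Q := by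
  have hD' : (0 : ℝ) < D := by exact_mod_cast hD
  set X₁ := X.filter fun x => ∀ τ ∈ below D K x.c,
    F.a K (nd D K (x, τ) K) {(nd D K (x, τ) K).c} ≤ α * (D : ℝ) ^ K with hX₁
  set H := (X.biUnion fun x => (below D K x.c).image fun τ => nd D K (x, τ) K).filter
    fun S => α * (D : ℝ) ^ K < F.a K S {S.c} with hH
  have hsub : X \ X₁ ⊆ H.biUnion (preN D K) := by
    intro x hx
    rw [Finset.mem_sdiff, hX₁, Finset.mem_filter] at hx
    have h2 : ¬ ∀ τ ∈ below D K x.c, F.a K (nd D K (x, τ) K) {(nd D K (x, τ) K).c} ≤ α * (D : ℝ) ^ K :=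
      fun h => hx.2 ⟨hx.1, h⟩
    push Not at h2
    obtain ⟨τ, hτ, h3⟩ := h2
    refine Finset.mem_biUnion.2 ⟨nd D K (x, τ) K, ?_, ?_⟩
    · exact Finset.mem_filter.2 ⟨Finset.mem_biUnion.2 ⟨x, hx.1, Finset.mem_image.2 ⟨τ, hτ, rfl⟩⟩, h3⟩
    · exact mem_preN hD (f := (x, τ)) ((mem_below_cap hD K _ _).1 hτ) le_rfl
  have hc : #(X \ X₁) ≤ #H * D ^ ((m + 2) * K) :=
    (Finset.card_le_card hsub).trans (Finset.card_biUnion_le_card_mul _ _ _ fun S _ => card_preN D K S)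
  have hc' : (#X : ℝ) - #X₁ ≤ #H * (D : ℝ) ^ ((m + 2) * K) := by
    have h1 : #(X \ X₁) + #X₁ = #X := Finset.card_sdiff_add_card_eq_card (Finset.filter_subset _ _)
    have h2 : (#(X \ X₁) : ℝ) + #X₁ = #X := by exact_mod_cast h1
    have h3 : (#(X \ X₁) : ℝ) ≤ #H * (D : ℝ) ^ ((m + 2) * K) := by exact_mod_cast hc
    linarith
  have ht := F.top H (by
    intro S hS
    obtain ⟨x, hx, hS⟩ := Finset.mem_biUnion.1 (Finset.mem_filter.1 hS).1
    obtain ⟨τ, -, rfl⟩ := Finset.mem_image.1 hS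
    exact nd_T_top hD (hX x hx).1 (hX x hx).2)
  have hs : (#H : ℝ) * (α * (D : ℝ) ^ K) ^ 2 ≤ ∑ S ∈ H, F.a K S {S.c} ^ 2 := by
    rw [← nsmul_eq_mul]
    refine Finset.card_nsmul_le_sum _ _ _ fun S hS => ?_
    exact pow_le_pow_left₀ (by positivity) (Finset.mem_filter.1 hS).2.le 2
  calc α ^ 2 * ((#X : ℝ) - #X₁) ≤ α ^ 2 * (#H * (D : ℝ) ^ ((m + 2) * K)) :=
        mul_le_mul_of_nonneg_left hc' (by positivity)
    _ = (#H : ℝ) * (α * (D : ℝ) ^ K) ^ 2 * (D : ℝ) ^ (K * m) := by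
        rw [show (m + 2) * K = K + K + K * m by ring, pow_add, pow_add]; ring
    _ ≤ (∑ S ∈ H, F.a K S {S.c} ^ 2) * (D : ℝ) ^ (K * m) := mul_le_mul_of_nonneg_right hs (by positivity)
    _ ≤ C * Q := ht

open Classical in
/-- **the initial alive sets** -/
theorem prep {D K : ℕ} (hD : 0 < D) {C Q : ℝ} (F : Amp m D K C Q) (X : Finset (Nd m)) (α : ℝ) (hα : 0 < α)
    (hK : 1 ≤ K) (hX : Rts F X α) : ∃ V₀ : ℕ → Finset (Nd m), V₀ 0 ⊆ X ∧ α ^ 2 * ((#X : ℝ) - #(V₀ 0)) ≤ C * Q ∧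
      (∀ x ∈ V₀ 0, α ≤ F.a 0 x (UU D K V₀ 0 x)) ∧ ∀ S ∈ V₀ K, F.a K S {S.c} ≤ α * (D : ℝ) ^ K := by
  have hD' : (0 : ℝ) < D := by exact_mod_cast hD
  set X₁ := X.filter fun x => ∀ τ ∈ below D K x.c,
    F.a K (nd D K (x, τ) K) {(nd D K (x, τ) K).c} ≤ α * (D : ℝ) ^ K with hX₁
  set V₀ : ℕ → Finset (Nd m) := fun i => X₁.biUnion fun x => (below D K x.c).image fun τ => nd D K (x, τ) i
    with hV₀
  have hne : ∀ c : Zv m, (below D K c).Nonempty := fun c => by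
    rw [← Finset.card_pos, card_below]; positivity
  have h0 : V₀ 0 = X₁ := by
    ext y
    simp only [hV₀, Finset.mem_biUnion, Finset.mem_image, nd_zero]
    constructor
    · rintro ⟨x, hx, τ, -, rfl⟩; exact hx
    · intro hy
      obtain ⟨τ, hτ⟩ := hne y.c
      exact ⟨y, hy, τ, hτ, rfl⟩
  refine ⟨V₀, h0 ▸ Finset.filter_subset _ _, ?_, ?_, ?_⟩
  · rw [h0]
    exact heavy hD F X α hα fun x hx => ⟨(hX x hx).2.1, (hX x hx).2.2.1⟩
  · intro x hx
    rw [h0] at hx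
    have : UU D K V₀ 0 x = below D K x.c := by
      unfold UU
      rw [Nat.sub_zero]
      refine Finset.filter_true_of_mem fun τ hτ i _ => ?_
      rw [zero_add]
      exact Finset.mem_biUnion.2 ⟨x, hx, Finset.mem_image.2 ⟨τ, hτ, rfl⟩⟩
    rw [this]
    exact (hX x (Finset.mem_filter.1 hx).1).2.2.2
  · intro S hS
    obtain ⟨x, hx, hS⟩ := Finset.mem_biUnion.1 hS
    obtain ⟨τ, hτ, rfl⟩ := Finset.mem_image.1 hS
    exact (Finset.mem_filter.1 hx).2 τ hτ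

open Classical in
/-- **the initial alive sets**, with the alive nodes of level `y` inside `W` -/
theorem prep4 {D K : ℕ} (hD : 0 < D) {C Q : ℝ} (F : Amp m D K C Q) (X : Finset (Nd m)) (α : ℝ) (hα : 0 < α)
    (y : ℕ) (W : Finset (Nd m)) (hy : 1 ≤ y) (hyK : y ≤ K)
    (hX : ∀ x ∈ X, 0 ≤ x.T ∧ x.T < (D : ℤ) ^ (2 * K) ∧
      α ≤ F.a 0 x ((below D K x.c).filter fun τ => ch D K 0 x τ y ∈ W)) :
    ∃ V₀ : ℕ → Finset (Nd m), V₀ 0 ⊆ X ∧ V₀ y ⊆ W ∧ α ^ 2 * ((#X : ℝ) - #(V₀ 0)) ≤ C * Q ∧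
      (∀ x ∈ V₀ 0, α ≤ F.a 0 x (UU D K V₀ 0 x)) ∧ ∀ S ∈ V₀ K, F.a K S {S.c} ≤ α * (D : ℝ) ^ K := by
  have hD' : (0 : ℝ) < D := by exact_mod_cast hD
  set X₁ := X.filter fun x => ∀ τ ∈ below D K x.c,
    F.a K (nd D K (x, τ) K) {(nd D K (x, τ) K).c} ≤ α * (D : ℝ) ^ K with hX₁
  set V₀ : ℕ → Finset (Nd m) := fun i =>
    (X₁.biUnion fun x => (below D K x.c).image fun τ => nd D K (x, τ) i).filter fun S => i = y → S ∈ W with hV₀
  have hne : ∀ c : Zv m, (below D K c).Nonempty := fun c => by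
    rw [← Finset.card_pos, card_below]; positivity
  have h0 : V₀ 0 = X₁ := by
    ext z
    simp only [hV₀, Finset.mem_filter, Finset.mem_biUnion, Finset.mem_image, nd_zero]
    constructor
    · rintro ⟨⟨x, hx, τ, -, rfl⟩, -⟩; exact hx
    · intro hz
      obtain ⟨τ, hτ⟩ := hne z.c
      exact ⟨⟨z, hz, τ, hτ, rfl⟩, fun h => by omega⟩
  refine ⟨V₀, h0 ▸ Finset.filter_subset _ _, fun S hS => (Finset.mem_filter.1 hS).2 rfl, ?_, ?_, ?_⟩
  · rw [h0]
    exact heavy hD F X α hα fun x hx => ⟨(hX x hx).1, (hX x hx).2.1⟩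
  · intro x hx
    rw [h0] at hx
    have : UU D K V₀ 0 x = (below D K x.c).filter fun τ => ch D K 0 x τ y ∈ W := by
      unfold UU
      rw [Nat.sub_zero]
      refine Finset.filter_congr fun τ hτ => ⟨fun h => ?_, fun h i _ => ?_⟩
      · have := h y (Finset.mem_Icc.2 ⟨hy, hyK⟩)
        rw [zero_add] at this
        exact (Finset.mem_filter.1 this).2 rfl
      · rw [zero_add]
        refine Finset.mem_filter.2 ⟨Finset.mem_biUnion.2 ⟨x, hx, Finset.mem_image.2 ⟨τ, hτ, rfl⟩⟩, ?_⟩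
        rintro rfl; exact h
    rw [this]
    exact (hX x (Finset.mem_filter.1 hx).1).2.2
  · intro S hS
    obtain ⟨x, hx, hS⟩ := Finset.mem_biUnion.1 (Finset.mem_filter.1 hS).1
    obtain ⟨τ, hτ, rfl⟩ := Finset.mem_image.1 hS
    exact (Finset.mem_filter.1 hx).2 τ hτ

end

end Vale.Agent.P076N
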